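import Vale.Agent.P224.OT.CstN
import Vale.Agent.P224.RIG.Least

/-!
Numerical facts for dimension thirteen.
-/

namespace Vale.Agent.P224.PO.M13

/-- the flux against the volume ratio -/
theorem flux_eq : (9483264 : ℝ) / 4826809 * √7 = √13 * (9483264 / 4826809 * √(7 / 13)) := by
  have h : √(7 : ℝ) = √13 * √(7 / 13) := by
    rw [← Real.sqrt_mul (by norm_num)]
    norm_num
  rw [h]
  ring

/-- upper bound of the volume ratio -/
theorem a_le : (9483264 : ℝ) / 4826809 * √(7 / 13) ≤ 14417005723 / 10000000000 := by
  have h : √(7 / 13 : ℝ) ≤ 14417005723 / 10000000000 * (4826809 / 9483264) := by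
    rw [Real.sqrt_le_left (by norm_num)]
    norm_num
  linarith

/-- lower bound of the volume ratio -/
theorem a_ge : (14417005722 : ℝ) / 10000000000 ≤ 9483264 / 4826809 * √(7 / 13) := by
  have h : (14417005722 : ℝ) / 10000000000 * (4826809 / 9483264) ≤ √(7 / 13) := by
    refine Real.le_sqrt_of_sq_le ?_
    norm_num
  linarith

/-- the volume ratio is at least `6 / 5` -/
theorem a_ge' : (6 : ℝ) / 5 ≤ 9483264 / 4826809 * √(7 / 13) := by
  have := a_ge
  linarith

/-- the volume ratio is less than two -/
theorem a_lt_two : (9483264 : ℝ) / 4826809 * √(7 / 13) < 2 := by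
  have := a_le
  linarith

/-- the least Clifford volume in dimension thirteen -/
theorem least_eq : leastClifford 13 = 9483264 / 4826809 * √(7 / 13) * sphereVol 13 := by
  rw [RIG.leastClifford_eq (m := 13) (by norm_num)]
  have h := clifford_odd (k := 6)
  rw [OT.oddRatio_6] at h
  simpa using h

end Vale.Agent.P224.PO.M13
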