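import Vale.Agent.P224.PO.CoreW4
import Vale.Agent.P224.PO.M13.Num
import Vale.Agent.P224.S13.ZeroD
import Vale.Agent.P224.S13.ZeroE
import Vale.Agent.P224.S13.Z13F
import Vale.Agent.P224.SO.One13Z
import Vale.Agent.P224.SO.Stab13F
import Vale.Agent.P224.SO.Stab13Gd
import Vale.Agent.P224.SO.Near13V
import Vale.Agent.P224.SO.NearS13p97c32
import Vale.Agent.P224.PO.R13.Main
import Vale.Agent.P224.PO.R13s.Law

/-!
The sharp volume bound in dimension thirteen, with the case of equality.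
-/

namespace Vale.Agent.P224.PO.M13

open MeasureTheory Set Filter Function Module Vale.Agent.P224 Vale.Agent.P224.UE
  Vale.Agent.P224.S13
open scoped Topology RealInnerProductSpace ENNReal ContDiff Manifold

set_option linter.unusedSectionVars false

lemma gam_pos : 0 < gamD := by linarith [gamD_bd.1]

lemma rho_pos : 0 < rhoD := by linarith [rhoD_bd.1]

lemma kap_nonneg : 0 ≤ kapD := by
  unfold kapD
  norm_num

lemma sq_r : √(42 : ℝ) ^ 2 = 42 := Real.sq_sqrt (by norm_num)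

lemma num1 : (((13 : ℕ) : ℝ) + 1) ^ 2 * gamD * (17 / 100000) ≤ 197 / 1000 * rhoD := by
  push_cast
  linarith [gamD_bd.2, rhoD_bd.1]

lemma num2 : ((((13 : ℕ) : ℝ) + 1) ^ 2 * (79 / 100) * gamD) ^ 2 * (17 / 100000)
    ≤ (119 / 10 * rhoD) ^ 2 := by
  push_cast
  have h1 : (((13 : ℝ) + 1) ^ 2 * (79 / 100) * gamD) ^ 2
      ≤ (((13 : ℝ) + 1) ^ 2 * (79 / 100) * (53017 / 100000)) ^ 2 :=
    pow_le_pow_left₀ (by linarith [gam_pos]) (by linarith [gamD_bd.2]) 2
  have h2 : ((119 / 10 : ℝ) * (8998 / 100000)) ^ 2 ≤ (119 / 10 * rhoD) ^ 2 :=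
    pow_le_pow_left₀ (by norm_num) (by linarith [rhoD_bd.1]) 2
  refine le_trans ?_ h2
  refine le_trans (mul_le_mul_of_nonneg_right h1 (by norm_num)) ?_
  norm_num

lemma num3 : (((13 : ℕ) : ℝ) + 1) ^ 2 * gamD * (291 / 1000000) ≤ 3372 / 10000 * rhoD := by
  push_cast
  linarith [gamD_bd.2, rhoD_bd.1]

section

variable {V W M : Type*} [NormedAddCommGroup V] [InnerProductSpace ℝ V] [FiniteDimensional ℝ V]
  [NormedAddCommGroup W] [InnerProductSpace ℝ W] [FiniteDimensional ℝ W]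
  [TopologicalSpace M] [ChartedSpace V M]
  [MeasurableSpace V] [BorelSpace V] [MeasurableSpace M] [BorelSpace M]
  [IsManifold 𝓘(ℝ, V) ∞ M] [CompactSpace M] [T2Space M] [ConnectedSpace M]
  [MeasurableSpace W] [BorelSpace W]

/-- **Dimension thirteen**: at most the Clifford volume forces equality and linearity. -/
theorem core (hV : finrank ℝ V = 13) (hW : finrank ℝ W = finrank ℝ V + 2)
    {F : M → W} (hF : SphImm V F) (hmin : ∀ x n, IsUnitNormal V F x n → meanCurv V F x n = 0)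
    (hng : ¬ ∃ a : W, a ≠ 0 ∧ ∀ x, ⟪F x, a⟫ = 0)
    (hle : (volM V F).real univ ≤ 9483264 / 4826809 * √(7 / 13) * sphereVol 13) :
    (volM V F).real univ = 9483264 / 4826809 * √(7 / 13) * sphereVol 13 ∧ Injective F ∧
      ∃ (N : M → W) (b : OrthonormalBasis (Fin (13 + 2)) ℝ W) (S : Finset (Fin (13 + 2))),
        ContMDiff 𝓘(ℝ, V) 𝓘(ℝ, W) ∞ N ∧ (∀ x, IsUnitNormal V F x (N x)) ∧ S.card = 8 ∧
        ∀ x, N x = ∑ i, ((if i ∈ S then √42 / 7 else -(1 / (√42 / 7))) * ⟪F x, b i⟫) • b i := by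
  have hfin : IsFiniteMeasure (volM V F) := isFiniteMeasure_volM hF
  have hne : Nonempty M := inferInstance
  have hΘ : 9997 / 10000 * (9483264 / 4826809 * √(7 / 13)) * sphereVol 13 ≤ (volM V F).real univ := by
    have h := R13.main hV hW hF hmin hng
    rw [least_eq] at h
    have h2 := (ENNReal.ofReal_le_iff_le_toReal (measure_ne_top _ _)).1 h
    have e : (volM V F).real univ = ((volM V F) univ).toReal := rfl
    rw [e]
    linarith
  have hr0 : (0 : ℝ) < √42 := by positivity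
  have ha2 : (√(42 : ℝ) / 7) ^ 2 = 6 / 7 := by
    rw [div_pow, sq_r]
    norm_num
  have hlr : ∀ Θ : ℝ, 9997 / 10000 * (9483264 / 4826809 * √(7 / 13)) ≤ Θ → 3603 / 2500 ≤ Θ := by
    intro Θ h
    linarith [a_ge]
  refine core_KW5s (m := 13) (h := 6) (C := 9483264 / 4826809 * √(7 / 13))
    (Θ1 := 9997 / 10000 * (9483264 / 4826809 * √(7 / 13)))
    (α := √42 / 7) (r := √42) (w := 6 / 7) (kr := √42 / 42) (w0 := 2)
    (T0 := 321 / 52) (k0 := -(9225 / 1456))
    (k1 := 96) (B := 168) (c := 33) (q := 12) (g1 := 15) (g' := 169 / 6)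
    (a2 := 46 / 49) (b2 := 12 / 7) (c2 := 3 / 49) (a1 := 11 / 12) (c1 := 1 / 12)
    (cc := (11 / 28) * √42) (cd := 8) (lamu := 22 / 5) (lamv := 227 / 1000)
    (lams := 4) (t1 := 197 / 1000) (t1' := 3372 / 10000) (κ1 := 119 / 10)
    (t2 := 436 / 10000) (t2' := 101 / 1000) (κ2 := 61 / 10) (Z := 1 / 50)
    (T0s := 159 / 26) (k0s := -(4661 / 728)) (k1s := 97) (cS := 32)
    (l := Z13.lT) (Ro := RoT (√42) ll kapD Z13.sT)
    (R0 := R00 (√42) ll kapD) (c0 := √13) (ρ := rhoD) (κ := kapD) (γ := gamD)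
    (lu := 567 / 10000) (lv := 41 / 2000) (cs := 121 / 49) (ρ2 := 29202561115 / 549755813888)
    (κs := 0) (lus := 34217918247 / 1099511627776)
    (b0 := 1) (b1 := 1118716221261 / 2199023255552) (b2' := -(12211445126061 / 4398046511104))
    (b3 := 3545763755787 / 2199023255552) (b4 := -(2642592246939 / 4398046511104)) (b5 := 973724676453 / 4398046511104)
    (b6 := 0) (b7 := 375436688587 / 1099511627776) (b8 := 0)
    (l2 := rlH 17998917385762897920 R13s.rows)
    (u0 := 17 / 100000) (u1 := 291 / 1000000)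
    (gs0 := 1053 / 25000000 - 10759 / 100000 * (17 / 100000) + 177 / 800 * (17 / 100000) ^ 2)
    (gs1 := 1053 / 25000000 - 10759 / 100000 * (291 / 1000000) + 177 / 800 * (291 / 1000000) ^ 2)
    (K := 79 / 100)
    (by norm_num) (by norm_num) hV hW hF hmin hng a_lt_two ?_ hΘ (by norm_num) (by positivity)
    (by rw [ha2]) hr0 (by push_cast; ring) ?_ (by push_cast; norm_num)
    (by push_cast; norm_num) (by push_cast; norm_num) ?_ (by push_cast; norm_num)
    (by norm_num) (by norm_num) (by push_cast; norm_num) (by norm_num) (by push_cast; norm_num)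
    ?_ (by norm_num) (by norm_num)
    (fun d x h h1 h0 hv hS => SO.F13.cls_T h h1 h0 hv hS)
    (fun d x h h1 h0 _ hc hS => SO.N13V.nearTg le_rfl le_rfl h h1 h0 hc le_rfl hS)
    (by push_cast; norm_num) (by norm_num) (by norm_num)
    (fun d x h h1 h0 hv hS => SO.G13d.cls_S h h1 h0 hv hS)
    (fun d x h h1 h0 _ hc hS => SO.NS13p97c32.nearSl le_rfl h h1 h0 hc le_rfl hS)
    Z13.reg_lT Z13.ok_lT Z13.w_lT
    (fun N hN T hT => null_RoT hN _ _ _ _ ⟨hT.1.le, hT.2⟩)
    (fun N hN => null_R00 hN _ _ _) Z13.hposR_lT (by positivity) rho_pos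
    kap_nonneg gam_pos ?_ ?_ ?_ ?_
    (Z13.flux_lT.trans flux_eq) ?_ (by norm_num) (by norm_num)
    (by push_cast; norm_num) (by push_cast; norm_num) R13s.rows_ok
    (fun e x N y w he hx hN hy hw hxN hyw hs => R13s.hpos_s e x N y w he hx hN hy hw hxN hyw hs)
    (by norm_num) (by norm_num)
    (fun Θ u r h1 h2 hu hT hr1 hr2 => R13s.hlaw_g (hlr Θ h1)
      (h2.trans (a_le.trans (by norm_num))) (by norm_num) (by norm_num) hu hT hr1 hr2)
    (fun Θ u r h1 h2 hu hT hr1 hr2 => R13s.hlaw_g (hlr Θ h1)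
      (h2.trans (a_le.trans (by norm_num))) (by norm_num) (by norm_num) hu hT hr1 hr2)
    (by norm_num)
    (fun N hN b S hS => SO.One13Z.one_dev hN (sp_of_hng hng) (by positivity) ha2 b S hS)
    num1 num2 num3 (by push_cast; norm_num) (by push_cast; norm_num) (by push_cast; norm_num)
    (by push_cast; norm_num) hle
  · linarith [a_ge]
  · -- kr
    have h1 := sq_r
    field_simp
    linarith
  · -- g'
    rw [sq_r]
    push_cast
    norm_num
  · -- cc
    push_cast
    nlinarith [sq_r]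
  · push_cast
    linarith [rhoD_bd.2]
  · linarith [rhoD_bd.2]
  · rw [sq_r]
    push_cast
    linarith [rhoD_bd.1]
  · intro x N y w hx hN hy hw hxN hyw
    exact Z13.h0_lT x N y w hx hN hy hw hxN hyw
  · -- cs
    have h1 : (648074 / 100000 : ℝ) ≤ √42 := Real.le_sqrt_of_sq_le (by norm_num)
    push_cast
    linarith

end

end Vale.Agent.P224.PO.M13
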